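import Vale.Agent.P032X.H892.BlkS
import Vale.Agent.P032X.Cert.X1a.All
import Vale.Agent.P032X.Cert.X1b.All

/-!
# P032: block X1 : no unit pair of five-coloured points
-/

open Vale.Agent.P032.Six Vale.Agent.P032.H61 Vale.Agent.P032.BlkE Vale.Agent.P032.H61.TF

/-- **the block X1** (both halves are certified) -/
theorem Vale.Agent.P032.X1.dead : Dead (kap TF.TC) (CW (fun _ => True) 5 5 73 TF.TC) [] :=
  Vale.Agent.P032.BlkS.x1_dead Vale.Agent.P032X.Cert.X1a.x1a Vale.Agent.P032X.Cert.X1b.x1b
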